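import Vale.Agent.P116.Ms.AbsU

/-!
P116, full Koebe, block V: the budget families are nonempty as soon as they are nonempty for the
nodes of high level which are off finitely many branches.
-/

open Set Filter Topology Metric
open scoped Classical

namespace Vale.Agent.P116.Slow.Sys

variable {T : Type*} {S : T → Type*} [∀ Q, PseudoMetricSpace (S Q)] (s : Sys T S)

/-- the nodes of level `m` below `Q` -/
noncomputable def blw (m : ℕ) (Q : T) : Finset T :=
  (s.finite_level_eq m).toFinset.filter (fun R => s.Bel Q R)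

variable {s}

lemma mem_blw {m : ℕ} {Q R : T} : R ∈ s.blw m Q ↔ s.lv R = m ∧ s.Bel Q R := by
  simp [blw]

lemma blw_self {Q : T} : s.blw (s.lv Q) Q = {Q} := by
  ext R
  rw [mem_blw, Finset.mem_singleton]
  constructor
  · rintro ⟨h1, h2⟩
    exact (s.bel_eq_of_lv h2 h1.symm).symm
  · rintro rfl
    exact ⟨rfl, s.bel_refl _⟩

lemma blw_succ {m : ℕ} {Q : T} (h : s.lv Q < m) (d : T → ℝ) :
    ∑ R ∈ s.ch Q, ∑ R' ∈ s.blw m R, d R' = ∑ R' ∈ s.blw m Q, d R' := by
  rw [← Finset.sum_biUnion]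
  · refine Finset.sum_congr ?_ fun _ _ => rfl
    ext R'
    simp only [Finset.mem_biUnion, mem_blw]
    constructor
    · rintro ⟨R, hR, h1, h2⟩
      exact ⟨h1, s.bel_trans (s.bel_ch hR) h2⟩
    · rintro ⟨h1, h2⟩
      have hne : Q ≠ R' := by
        rintro rfl
        omega
      obtain ⟨R, hR, hRR⟩ := s.bel_of_lt h2 hne
      exact ⟨R, hR, h1, hRR⟩
  · intro R hR R₁ hR₁ hne
    rw [Function.onFun, Finset.disjoint_left]
    intro R' h1 h2
    rw [mem_blw] at h1 h2
    have hlv : s.lv R = s.lv R₁ := by rw [s.lv_ch _ _ hR, s.lv_ch _ _ hR₁]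
    rcases s.bel_total h1.2 h2.2 with h3 | h3
    · exact hne (s.bel_eq_of_lv h3 hlv)
    · exact hne (s.bel_eq_of_lv h3 hlv.symm).symm

/-- additive budgets: from the nodes of level `m` to a node of smaller level -/
lemma nonempty_of_level {E : ℝ → ∀ Q, Set (S Q)}
    (hjoin : ∀ Q (a : ∀ Q, S Q) (d : T → ℝ), (∀ R ∈ s.ch Q, 0 ≤ d R) →
      (∀ R ∈ s.ch Q, a R ∈ E (d R) R) → s.join Q a ∈ E (∑ R ∈ s.ch Q, d R) Q)
    {m : ℕ} {d : T → ℝ} (hd : ∀ R, 0 ≤ d R) (n : ℕ) :
    ∀ Q : T, s.lv Q + n = m → (∀ R ∈ s.blw m Q, (E (d R) R).Nonempty) →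
      (E (∑ R ∈ s.blw m Q, d R) Q).Nonempty := by
  induction n with
  | zero =>
    intro Q hQ h
    have hQ' : s.lv Q = m := by omega
    subst hQ'
    rw [blw_self, Finset.sum_singleton]
    exact h Q (by rw [blw_self]; exact Finset.mem_singleton_self Q)
  | succ n ih =>
    intro Q hQ h
    have h1 : ∀ R ∈ s.ch Q, (E (∑ R' ∈ s.blw m R, d R') R).Nonempty := by
      intro R hR
      refine ih R (by rw [s.lv_ch _ _ hR]; omega) fun R' hR' => h R' ?_
      rw [mem_blw] at hR' ⊢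
      exact ⟨hR'.1, s.bel_trans (s.bel_ch hR) hR'.2⟩
    have h1' : ∀ R, ∃ a : S R, R ∈ s.ch Q → a ∈ E (∑ R' ∈ s.blw m R, d R') R := by
      intro R
      by_cases hR : R ∈ s.ch Q
      · obtain ⟨a, ha⟩ := h1 R hR
        exact ⟨a, fun _ => ha⟩
      · exact ⟨s.o R, fun h => absurd h hR⟩
    choose a ha using h1'
    have h2 := hjoin Q a (fun R => ∑ R' ∈ s.blw m R, d R')
      (fun R _ => Finset.sum_nonneg fun R' _ => hd R') ha
    rw [blw_succ (by omega) d] at h2
    exact ⟨_, h2⟩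

/-- **block V2**: nonempty budget families -/
theorem nonempty_all {E : ℝ → ∀ Q, Set (S Q)}
    (hmono : ∀ δ δ', δ ≤ δ' → ∀ Q, E δ Q ⊆ E δ' Q)
    (hjoin : ∀ Q (a : ∀ Q, S Q) (d : T → ℝ), (∀ R ∈ s.ch Q, 0 ≤ d R) →
      (∀ R ∈ s.ch Q, a R ∈ E (d R) R) → s.join Q a ∈ E (∑ R ∈ s.ch Q, d R) Q)
    {ι : Type*} (F : Finset ι) (b : ι → ℕ → T)
    (ho : ∀ i ∈ F, ∀ δ > 0, ∀ᶠ m in atTop, s.o (b i m) ∈ E δ (b i m))
    (k : ℕ) (hgood : ∀ Q, k ≤ s.lv Q → (∀ i ∈ F, Q ≠ b i (s.lv Q)) → ∀ δ > 0, (E δ Q).Nonempty) :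
    ∀ δ > 0, ∀ Q, (E δ Q).Nonempty := by
  intro δ hδ Q
  have hN : (0:ℝ) < F.card + 1 := by positivity
  set e₁ : ℝ := δ / (2 * (F.card + 1)) with he₁
  have he₁0 : 0 < e₁ := by positivity
  have h1 : ∀ᶠ m in atTop, ∀ i ∈ F, s.o (b i m) ∈ E e₁ (b i m) := by
    rw [Filter.eventually_all_finset]
    exact fun i hi => ho i hi e₁ he₁0
  obtain ⟨m, hm1, hm2, hm3⟩ := (h1.and ((eventually_ge_atTop k).and
    (eventually_ge_atTop (s.lv Q)))).exists
  set N : ℝ := ((s.blw m Q).card : ℝ) + 1 with hNdef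
  have hN0 : 0 < N := by positivity
  set e₂ : ℝ := δ / (2 * N) with he₂
  have he₂0 : 0 < e₂ := by positivity
  set d : T → ℝ := fun R => if ∃ i ∈ F, R = b i m then e₁ else e₂ with hd
  have hd0 : ∀ R, 0 ≤ d R := by
    intro R
    simp only [hd]
    split_ifs
    · exact he₁0.le
    · exact he₂0.le
  have h2 : ∀ R ∈ s.blw m Q, (E (d R) R).Nonempty := by
    intro R hR
    rw [mem_blw] at hR
    by_cases h : ∃ i ∈ F, R = b i m
    · obtain ⟨i, hi, rfl⟩ := h
      refine ⟨s.o (b i m), ?_⟩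
      simp only [hd]
      rw [if_pos ⟨i, hi, rfl⟩]
      exact hm1 i hi
    · have h' : d R = e₂ := if_neg h
      rw [h']
      refine hgood R (by omega) (fun i hi heq => h ⟨i, hi, ?_⟩) e₂ he₂0
      rw [← hR.1]
      exact heq
  have h3 := nonempty_of_level (s := s) hjoin hd0 (m - s.lv Q) Q (by omega) h2
  refine h3.mono (hmono _ _ ?_ Q)
  calc ∑ R ∈ s.blw m Q, d R
      ≤ ∑ R ∈ s.blw m Q, ((∑ i ∈ F, if R = b i m then e₁ else 0) + e₂) := by
        refine Finset.sum_le_sum fun R _ => ?_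
        by_cases h : ∃ i ∈ F, R = b i m
        · have h' : d R = e₁ := if_pos h
          rw [h']
          obtain ⟨i, hi, hRi⟩ := h
          have h4 : (if R = b i m then e₁ else 0) ≤ ∑ i ∈ F, if R = b i m then e₁ else 0 :=
            Finset.single_le_sum (f := fun i => if R = b i m then e₁ else 0)
              (fun i _ => by split_ifs <;> [exact he₁0.le; exact le_rfl]) hi
          rw [if_pos hRi] at h4
          linarith
        · have h' : d R = e₂ := if_neg h
          rw [h']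
          have h4 : 0 ≤ ∑ i ∈ F, if R = b i m then e₁ else 0 :=
            Finset.sum_nonneg fun i _ => by split_ifs <;> [exact he₁0.le; exact le_rfl]
          linarith
    _ = (∑ i ∈ F, ∑ R ∈ s.blw m Q, if R = b i m then e₁ else 0) + (s.blw m Q).card * e₂ := by
        rw [Finset.sum_add_distrib, Finset.sum_comm, Finset.sum_const, nsmul_eq_mul]
    _ ≤ (∑ _i ∈ F, e₁) + (s.blw m Q).card * e₂ := by
        gcongr with i hi
        rw [Finset.sum_ite_eq']
        split_ifs
        · exact le_rfl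
        · exact he₁0.le
    _ ≤ δ := by
        rw [Finset.sum_const, nsmul_eq_mul]
        have h5 : (F.card : ℝ) * e₁ ≤ δ / 2 := by
          rw [he₁]
          have : (F.card : ℝ) * (δ / (2 * (F.card + 1))) = (F.card / (F.card + 1)) * (δ / 2) := by
            field_simp
          rw [this]
          have h6 : (F.card : ℝ) / (F.card + 1) ≤ 1 := by
            rw [div_le_one hN]
            linarith
          nlinarith
        have h7 : ((s.blw m Q).card : ℝ) * e₂ ≤ δ / 2 := by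
          rw [he₂]
          have : ((s.blw m Q).card : ℝ) * (δ / (2 * N)) = ((s.blw m Q).card / N) * (δ / 2) := by
            field_simp
          rw [this]
          have h6 : ((s.blw m Q).card : ℝ) / N ≤ 1 := by
            rw [div_le_one hN0]
            linarith
          nlinarith
        linarith

end Vale.Agent.P116.Slow.Sys
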